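import Vale.Agent.P281.H167.SA.X2

/-! P281, theorem SA, block X: the analytic core of the flatness theorem for a closed semipositive
form `θ` in place of `Ric(w) ≥ 0`. -/

open scoped Manifold ContDiff ComplexOrder Topology
open Complex Set Filter MeasureTheory Matrix

set_option linter.all false

noncomputable section

namespace Vale.Agent.P281.H156.SA

open Vale.Agent.P299 Vale.Agent.P299.H882
open Vale.Agent.P272.K Vale.Agent.P272.K.AMP Vale.Agent.P299.D
open INT (IsDensity intX IsClosedForm)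
open Vale.Agent.P281.H167.SA (BochIneqT)

variable {n : ℕ} {X : Type} [TopologicalSpace X] [ChartedSpace (Cm n) X]
  [IsManifold 𝓘(ℂ, Cm n) ω X]
  {θ w : Chart n X → Cm n → Matrix (Fin n) (Fin n) ℂ}

/-- `χ_s = s θ + w` -/
def chi (θ w : Chart n X → Cm n → Matrix (Fin n) (Fin n) ℂ) (s : ℝ) :
    Chart n X → Cm n → Matrix (Fin n) (Fin n) ℂ := fun e z => (s : ℂ) • θ e z + w e z

lemma isClosed_chi (hw : IsKahler w) (hθc : IsClosedForm θ) (s : ℝ) :
    IsClosedForm (chi θ w s) :=
  (hθc.smul (s : ℂ)).add (INT.IsKahler.isClosedForm hw)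

lemma chi_posDef (hw : IsKahler w) (hR : ∀ e x, At e x → (θ e (e x)).PosSemidef) {s : ℝ}
    (hs : 0 ≤ s) {e : Chart n X} {x : X} (hx : At e x) : (chi θ w s e (e x)).PosDef :=
  pencil_posDef (hw.posDef e x hx) (hR e x hx) hs

lemma isKahler_chi (hw : IsKahler w) (hθc : IsClosedForm θ)
    (hR : ∀ e x, At e x → (θ e (e x)).PosSemidef) {s : ℝ} (hs : 0 ≤ s) :
    IsKahler (chi θ w s) :=
  isKahler_of_closed' (isClosed_chi hw hθc s) fun e x hx => chi_posDef hw hR hs hx

section

variable [T2Space X] [CompactSpace X]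

/-- growth of the volume of `χ_s` -/
lemma vol_chi_le (hw : IsKahler w) (hθc : IsClosedForm θ)
    (hR : ∀ e x, At e x → (θ e (e x)).PosSemidef) {ν : ℕ}
    (hν : ∀ e x, At e x → (θ e (e x)).rank ≤ ν) {s : ℝ} (hs : 1 ≤ s) :
    J (chi θ w s) (fun _ => 1) ≤ s ^ ν * J (chi θ w 1) (fun _ => 1) := by
  rw [J_one, J_one, ← INT.intX_const_mul]
  have h1 := isKahler_chi hw hθc hR zero_le_one
  have h2 := isKahler_chi hw hθc hR (zero_le_one.trans hs)
  refine INT.intX_mono (dens_metric h2.toIsHermitian) ((dens_metric h1.toIsHermitian).const_mul _)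
    fun e x hx => ?_
  have := det_pencil_le (hw.posDef e x hx) (hR e x hx) (hν e x hx) hs
  have e1 : chi θ w 1 e (e x) = (1 : ℂ) • θ e (e x) + w e (e x) := by
    unfold chi; rw [Complex.ofReal_one]
  rw [e1]
  exact this

/-- the Yau metric in the class of `χ_s` -/
theorem exists_yau (hYau : H835.YauStatement n X) (hw : IsKahler w) (hθc : IsClosedForm θ)
    (hR : ∀ e x, At e x → (θ e (e x)).PosSemidef) {s : ℝ}
    (hs : 0 ≤ s) : ∃ (u : X → ℝ) (c : ℝ), SmoothFn (n := n) u ∧ IsKahler (addH (chi θ w s) u) ∧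
      ∀ e x, At e x → Real.log (addH (chi θ w s) u e (e x)).det.re =
        Real.log (w e (e x)).det.re + c := by
  have hχ := isKahler_chi hw hθc hR hs
  have hcan := Vale.Agent.P272.S2B.isCanonical_log_det hw.toIsHermitian
  obtain ⟨u, c, hu, hpos, heq⟩ := hYau (chi θ w s) hχ _ (smoothFn_ricPot hχ.toIsHermitian hcan)
  refine ⟨u, c, hu, ?_, fun e x hx => ?_⟩
  · refine isKahler_of_closed' ?_ hpos
    exact (isClosed_chi hw hθc s).add (INT.isClosedForm_cHess hu)
  · have := heq e x hx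
    rw [ricPot_eq hχ.toIsHermitian hcan hx] at this
    linarith

end

/-- `s ↦ |ξ|²_{χ_s} det χ_s / det w` -/
def Qs (θ w : Chart n X → Cm n → Matrix (Fin n) (Fin n) ℂ) (ξ : Fin n → ℂ) (e : Chart n X) (z : Cm n)
    (s : ℝ) : ℝ :=
  qf (chi θ w s e z) ξ * ((chi θ w s e z).det.re / (w e z).det.re)

lemma continuousAt_Qs (hw : IsKahler w) (hθc : IsClosedForm θ)
    (hR : ∀ e x, At e x → (θ e (e x)).PosSemidef) {ξ : Cm n → Fin n → ℂ} {e : Chart n X}
    {x : X} (hx : At e x) (hu : ∀ i, ContinuousAt (fun z => ξ z i) (e x)) {s : ℝ} (hs : 0 ≤ s) :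
    ContinuousAt (fun z => Qs θ w (ξ z) e z s) (e x) := by
  have hχ := (isKahler_chi hw hθc hR hs).toIsHermitian
  have h1 : ∀ i j, ContinuousAt (fun z => (chi θ w s e z)⁻¹ i j) (e x) := fun i j =>
    (contDiffAt_inv (m := ∞) (hχ.smooth e x hx) (hχ.posDef e x hx).det_pos.ne' i j).continuousAt
  have h2 : ContinuousAt (fun z => (chi θ w s e z).det.re) (e x) :=
    Complex.continuous_re.continuousAt.comp
      (contDiffAt_det (m := ∞) (hχ.smooth e x hx)).continuousAt
  have h3 : ContinuousAt (fun z => (w e z).det.re) (e x) :=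
    Complex.continuous_re.continuousAt.comp
      (contDiffAt_det (m := ∞) (hw.smooth e x hx)).continuousAt
  have h4 : ContinuousAt (fun z => qf (chi θ w s e z) (ξ z)) (e x) := by
    unfold qf
    refine Complex.continuous_re.continuousAt.comp ?_
    simp only [Matrix.trace, Matrix.diag_apply, Matrix.mul_apply, vecMulVec_apply, Pi.star_apply]
    refine tendsto_finset_sum _ fun i _ => tendsto_finset_sum _ fun j _ => ?_
    exact (h1 i j).mul ((hu j).mul ((continuous_star.continuousAt).comp (hu i)))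
  exact h4.mul (h2.div h3 (hw.toIsHermitian.det_re_pos hx).ne')

lemma qf_smul (A : Matrix (Fin n) (Fin n) ℂ) (c : ℂ) (ξ : Fin n → ℂ) :
    qf A (fun i => c * ξ i) = ‖c‖ ^ 2 * qf A ξ := by
  unfold qf
  have h1 : vecMulVec (fun i => c * ξ i) (star fun i => c * ξ i) =
      ((‖c‖ ^ 2 : ℝ) : ℂ) • vecMulVec ξ (star ξ) := by
    ext i j
    simp only [vecMulVec_apply, Pi.star_apply, Matrix.smul_apply, smul_eq_mul, star_mul']
    rw [Complex.ofReal_pow, ← Complex.mul_conj']
    simp only [RCLike.star_def]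
    ring
  rw [h1, Matrix.mul_smul, Matrix.trace_smul, smul_eq_mul, Complex.re_ofReal_mul]

/-- the coefficient of `s^ν` of the polynomial `s ↦ |ξ|²_{χ_s} det χ_s / det w` -/
def qn (θ w : Chart n X → Cm n → Matrix (Fin n) (Fin n) ℂ) (ν : ℕ) (ξ : Fin n → ℂ) (e : Chart n X)
    (z : Cm n) : ℝ :=
  ∑ l : Fin (n + 1), (exists_coeff_formula n ν).choose l * Qs θ w ξ e z ((l : ℕ) : ℝ)

lemma qn_smul (θ w : Chart n X → Cm n → Matrix (Fin n) (Fin n) ℂ) (ν : ℕ) (c : ℂ) (ξ : Fin n → ℂ)
    (e : Chart n X) (z : Cm n) : qn θ w ν (fun i => c * ξ i) e z = ‖c‖ ^ 2 * qn θ w ν ξ e z := by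
  unfold qn Qs
  rw [Finset.mul_sum]
  refine Finset.sum_congr rfl fun l _ => ?_
  rw [qf_smul]
  ring

lemma continuousAt_qn (hw : IsKahler w) (hθc : IsClosedForm θ)
    (hR : ∀ e x, At e x → (θ e (e x)).PosSemidef) (ν : ℕ) {ξ : Cm n → Fin n → ℂ}
    {e : Chart n X} {x : X} (hx : At e x) (hu : ∀ i, ContinuousAt (fun z => ξ z i) (e x)) :
    ContinuousAt (fun z => qn θ w ν (ξ z) e z) (e x) := by
  refine tendsto_finset_sum _ fun l _ => ?_
  exact continuousAt_const.mul (continuousAt_Qs hw hθc hR hx hu (Nat.cast_nonneg _))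

lemma exists_poly_qn (hw : IsKahler w) (hθc : IsClosedForm θ)
    (hR : ∀ e x, At e x → (θ e (e x)).PosSemidef) (ν : ℕ) (ξ : Fin n → ℂ) {e : Chart n X}
    {y : X} (hy : At e y) : ∃ p : Polynomial ℝ, NN p ∧
      (∀ s : ℝ, 0 ≤ s → p.eval s = Qs θ w ξ e (e y) s) ∧ qn θ w ν ξ e (e y) = p.coeff ν ∧
      ∀ v : Fin n → ℂ, (∀ j, ∑ i, v i * θ e (e y) i j = 0) → ∑ i, ξ i * v i ≠ 0 →
        0 < p.coeff (θ e (e y)).rank := by
  obtain ⟨p, h1, h2, h3, h4⟩ := exists_poly (hw.posDef e y hy) (hR e y hy) ξ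
  refine ⟨p, h2, h3, ?_, h4⟩
  rw [(exists_coeff_formula n ν).choose_spec p h1, qn]
  refine Finset.sum_congr rfl fun l _ => ?_
  rw [h3 _ (Nat.cast_nonneg _)]
  rfl

lemma qn_nonneg (hw : IsKahler w) (hθc : IsClosedForm θ)
    (hR : ∀ e x, At e x → (θ e (e x)).PosSemidef) (ν : ℕ) (ξ : Fin n → ℂ) {e : Chart n X}
    {y : X} (hy : At e y) : 0 ≤ qn θ w ν ξ e (e y) := by
  obtain ⟨p, h1, -, h3, -⟩ := exists_poly_qn hw hθc hR ν ξ hy
  rw [h3]
  exact h1 ν

/-- if the coefficient vanishes at a point of rank `ν`, the covector kills the kernel -/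
lemma kills_of_qn (hw : IsKahler w) (hθc : IsClosedForm θ)
    (hR : ∀ e x, At e x → (θ e (e x)).PosSemidef) {ξ : Fin n → ℂ} {e : Chart n X}
    {y : X} (hy : At e y) (h : qn θ w (θ e (e y)).rank ξ e (e y) ≤ 0) (v : Fin n → ℂ)
    (hv : ∀ j, ∑ i, v i * θ e (e y) i j = 0) : ∑ i, ξ i * v i = 0 := by
  by_contra hne
  obtain ⟨p, h1, -, h3, h4⟩ := exists_poly_qn hw hθc hR (θ e (e y)).rank ξ hy
  have := h4 v hv hne
  rw [← h3] at this
  linarith

/-- the lower bound for `|∂u|²_{χ_s} det χ_s` near a point where the coefficient is positive -/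
theorem lower_bound (hw : IsKahler w) (hθc : IsClosedForm θ)
    (hR : ∀ e x, At e x → (θ e (e x)).PosSemidef) {u : X → ℝ} {e : Chart n X} {x : X}
    (hx : At e x) (hu : ∀ i, ContinuousAt (fun z => xi u e z i) (e x)) {ν : ℕ}
    (hqx : 0 < qn θ w ν (xi u e (e x)) e (e x)) :
    ∃ δ : ℝ, 0 < δ ∧ ∀ᶠ y in 𝓝 x, At e y ∧
      ∀ s : ℝ, 0 ≤ s → δ * s ^ ν ≤ Qs θ w (xi u e (e y)) e (e y) s := by
  have hqc := continuousAt_qn hw hθc hR ν hx hu
  refine ⟨qn θ w ν (xi u e (e x)) e (e x) / 2, half_pos hqx, ?_⟩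
  have h5 : ∀ᶠ y in 𝓝 x, qn θ w ν (xi u e (e x)) e (e x) / 2 < qn θ w ν (xi u e (e y)) e (e y) := by
    have : Tendsto (fun y => qn θ w ν (xi u e (e y)) e (e y)) (𝓝 x)
        (𝓝 (qn θ w ν (xi u e (e x)) e (e x))) :=
      hqc.tendsto.comp (e.continuousAt hx.2)
    exact this.eventually (lt_mem_nhds (half_lt_self hqx))
  filter_upwards [h5, e.open_source.mem_nhds hx.2] with y h6 h7
  have hy : At e y := ⟨hx.1, h7⟩
  refine ⟨hy, fun s hs => ?_⟩
  obtain ⟨p, h1, h2, h3, -⟩ := exists_poly_qn hw hθc hR ν (xi u e (e y)) hy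
  rw [← h2 s hs]
  refine le_trans ?_ (h1.le_eval hs ν)
  rw [h3] at h6
  exact mul_le_mul_of_nonneg_right h6.le (pow_nonneg hs ν)

variable [T2Space X] [CompactSpace X]

lemma hess_addH {χ : Chart n X → Cm n → Matrix (Fin n) (Fin n) ℂ} {U : X → ℝ} (e : Chart n X)
    (z : Cm n) : addH χ U e z = χ e z + hess U e z := rfl

/-- the two integral identities for a Yau metric `g = χ_s + i∂∂̄U` -/
lemma trace_bounds (hw : IsKahler w) (hθc : IsClosedForm θ)
    (hR : ∀ e x, At e x → (θ e (e x)).PosSemidef) {s : ℝ} (hs : 0 < s) {U : X → ℝ}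
    (hU : SmoothFn (n := n) U) (hg : IsKahler (addH (chi θ w s) U)) :
    J (addH (chi θ w s) U) (fun _ => 1) = J (chi θ w s) (fun _ => 1) ∧
    (∀ x, 0 ≤ trX (addH (chi θ w s) U) θ x) ∧
    s * J (addH (chi θ w s) U) (trX (addH (chi θ w s) U) θ) ≤ n * J (chi θ w s) (fun _ => 1) ∧
    J (chi θ w s) (trX (chi θ w s) (addH (chi θ w s) U)) = n * J (chi θ w s) (fun _ => 1) := by
  set g := addH (chi θ w s) U with hgdef
  have hχ := isKahler_chi hw hθc hR hs.le
  have hgH := hg.toIsHermitian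
  have hχH := hχ.toIsHermitian
  have hric : IsForm θ := hθc.form
  have e1 : J g (fun _ => 1) = J (chi θ w s) (fun _ => 1) := by
    rw [J_one, J_one]
    exact INT.intX_det_add_cHess (isClosed_chi hw hθc s) hU
  have htr0 : ∀ x, 0 ≤ trX g θ x := by
    intro x
    have hx := at_chartAt (n := n) x
    rw [trX_eq hgH hric hx]
    exact (Complex.le_def.1 (C2.trace_mul_nonneg (hgH.posDef _ x hx).inv.posSemidef
      (hR _ x hx))).1
  refine ⟨e1, htr0, ?_, ?_⟩
  · have cτ : Continuous (trX g θ) :=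
      sm_continuous (smoothFn_trX hgH hric hθc.smooth)
    have cl := cont_lap hgH hU
    have h1 : ∀ x, s * trX g θ x ≤ n * 1 - lapX g U x := by
      intro x
      have hx := at_chartAt (n := n) x
      rw [trX_eq hgH hric hx, lapX_eq hgH hU hx]
      have hdet : IsUnit (g (chartAt (Cm n) x) (chartAt (Cm n) x x)).det :=
        (isUnit_iff_ne_zero.2 (hgH.posDef _ x hx).det_pos.ne')
      have h2 : (s : ℂ) • θ (chartAt (Cm n) x) (chartAt (Cm n) x x) =
          g (chartAt (Cm n) x) (chartAt (Cm n) x x) -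
          hess U (chartAt (Cm n) x) (chartAt (Cm n) x x) -
          w (chartAt (Cm n) x) (chartAt (Cm n) x x) := by
        rw [hgdef, hess_addH, chi]; abel
      have h3 : s * trE g θ (chartAt (Cm n) x) (chartAt (Cm n) x x) =
          ((g (chartAt (Cm n) x) (chartAt (Cm n) x x))⁻¹ *
            ((s : ℂ) • θ (chartAt (Cm n) x) (chartAt (Cm n) x x))).trace.re := by
        rw [tr_smul]; rfl
      rw [h3, h2, tr_sub, tr_sub, Matrix.nonsing_inv_mul _ hdet]
      have h4 : (1 : Matrix (Fin n) (Fin n) ℂ).trace.re = n := by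
        rw [Matrix.trace_one]; simp
      have h5 : 0 ≤ ((g (chartAt (Cm n) x) (chartAt (Cm n) x x))⁻¹ *
          w (chartAt (Cm n) x) (chartAt (Cm n) x x)).trace.re :=
        (Complex.le_def.1 (C2.trace_mul_nonneg (hgH.posDef _ x hx).inv.posSemidef
          (hw.posDef _ x hx).posSemidef)).1
      rw [h4]
      unfold lapE
      linarith
    have c1 : Continuous fun x : X => s * trX g θ x := continuous_const.mul cτ
    have c2 : Continuous fun x : X => (n : ℝ) * 1 := continuous_const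
    have c3 : Continuous fun x : X => (n : ℝ) * 1 - lapX g U x := c2.sub cl
    have h2 := J_mono hgH c1 c3 h1
    rw [J_const_mul, J_sub hgH c2 cl, J_const_mul, J_lap hg hU, e1, sub_zero] at h2
    exact h2
  · have cl := cont_lap hχH hU
    have h1 : ∀ x, trX (chi θ w s) g x = n * 1 + lapX (chi θ w s) U x := by
      intro x
      have hx := at_chartAt (n := n) x
      rw [trX_eq hχH hgH.isForm hx, lapX_eq hχH hU hx]
      have hdet : IsUnit (chi θ w s (chartAt (Cm n) x) (chartAt (Cm n) x x)).det :=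
        (isUnit_iff_ne_zero.2 (hχH.posDef _ x hx).det_pos.ne')
      unfold trE lapE
      rw [hgdef, hess_addH, tr_add, Matrix.nonsing_inv_mul _ hdet]
      have h4 : (1 : Matrix (Fin n) (Fin n) ℂ).trace.re = n := by
        rw [Matrix.trace_one]; simp
      rw [h4, mul_one]
    have c2 : Continuous fun x : X => (n : ℝ) * 1 := continuous_const
    rw [J_congr h1, J_add hχH c2 cl, J_const_mul, J_lap hχ hU, add_zero]

/-- **Flatness theorem**, analytic core. -/
theorem flat_core (hYau : H835.YauStatement n X) (hw : IsKahler w) (hθc : IsClosedForm θ)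
    (hR : ∀ e x, At e x → (θ e (e x)).PosSemidef) {m m0 : ℝ}
    (hm : 0 ≤ m) (hm0 : 0 ≤ m0) {V : Set X} (hV : IsOpen V) {u : X → ℝ}
    (hS : ∀ g : Chart n X → Cm n → Matrix (Fin n) (Fin n) ℂ, IsKahler g →
      (∃ c : ℝ, ∀ e x, At e x → Real.log (g e (e x)).det.re = Real.log (w e (e x)).det.re + c) →
      ∃ S S0 : X → ℝ, SmoothFn (n := n) S ∧ SmoothFn (n := n) S0 ∧ (∀ x, 0 ≤ S x) ∧
        (∀ x, 0 ≤ S0 x) ∧ (∀ x ∈ V, 0 < S x ∧ 0 < S0 x ∧ u x = Real.log (S x) - Real.log (S0 x)) ∧
        BochIneqT θ g m S ∧ BochIneqT θ g m0 S0)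
    {ν : ℕ} (hr : ∀ e' y, At e' y → (θ e' (e' y)).rank ≤ ν)
    {e : Chart n X} {x : X} (hx : At e x) (hxV : x ∈ V) :
    qn θ w ν (xi u e (e x)) e (e x) = 0 := by
  refine le_antisymm ?_ (qn_nonneg hw hθc hR ν _ hx)
  by_contra hne
  rw [not_le] at hne
  haveI : Nonempty X := ⟨x⟩
  -- smoothness of `u` on `V`
  obtain ⟨S1, S2, hS1, hS2, -, -, hS12, -, -⟩ := hS w hw ⟨0, fun e x _ => by rw [add_zero]⟩
  have husm : ∀ (e' : Chart n X) y, At e' y → y ∈ V →
      ContDiffAt ℝ ∞ (fun z => u (e'.symm z)) (e' y) := by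
    intro e' y hy hyV
    have h1 : ContDiffAt ℝ ∞ (fun z => Real.log (S1 (e'.symm z)) - Real.log (S2 (e'.symm z)))
        (e' y) := by
      refine ((hS1 e' y hy).log ?_).sub ((hS2 e' y hy).log ?_)
      · rw [hy.left_inv]; exact (hS12 y hyV).1.ne'
      · rw [hy.left_inv]; exact (hS12 y hyV).2.1.ne'
    refine h1.congr_of_eventuallyEq ?_
    have h2 : ∀ᶠ z in 𝓝 (e' y), e'.symm z ∈ V := by
      have : ContinuousAt e'.symm (e' y) := e'.continuousAt_symm (e'.map_source hy.2)
      refine this.eventually_mem ?_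
      rw [hy.left_inv]; exact hV.mem_nhds hyV
    filter_upwards [h2] with z hz
    exact (hS12 _ hz).2.2
  have hucont : ContinuousOn u V := by
    intro y hy
    have hy' := at_chartAt (n := n) y
    have h1 := (husm _ y hy' hy).continuousAt
    have h2 : ContinuousAt (fun y' => u ((chartAt (Cm n) y).symm (chartAt (Cm n) y y'))) y :=
      h1.comp (f := chartAt (Cm n) y) ((chartAt (Cm n) y).continuousAt hy'.2)
    refine (h2.congr ?_).continuousWithinAt
    filter_upwards [(chartAt (Cm n) y).open_source.mem_nhds hy'.2] with y' hy''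
    rw [(chartAt (Cm n) y).left_inv hy'']
  have hxic : ∀ i, ContinuousAt (fun z => xi u e z i) (e x) := fun i =>
    (contDiffAt_dz (m := 0) (r := 1) ((ofReal_contDiffAt (husm e x hx hxV)).of_le
      (by norm_cast)) (by simp)).continuousAt
  obtain ⟨δ, hδ, hlow⟩ := lower_bound hw hθc hR hx hxic hne
  -- the neighbourhood `N` of `x`
  obtain ⟨N, hN, hNo, hxN⟩ := mem_nhds_iff.1 (hlow.and (hV.mem_nhds hxV))
  obtain ⟨η, hηs, hη1, hη01⟩ := exists_tsupport_one_of_isOpen_isClosed hNo
    isClosed_closure.isCompact isClosed_singleton (Set.singleton_subset_iff.2 hxN)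
  have hηx : η x = 1 := hη1 rfl
  set K := tsupport η with hK
  have hKc : IsCompact K := (isClosed_tsupport η).isCompact
  have hKV : ∀ y ∈ K, y ∈ V := fun y hy => (hN (hηs hy)).2
  have hxK : x ∈ K := subset_tsupport _ (by simp [hηx])
  obtain ⟨C, hC⟩ := hKc.exists_bound_of_continuousOn (hucont.mono hKV)
  have hwH := hw.toIsHermitian
  have hV0 : 0 < J w (fun _ => 1) := J_pos hwH
  have h1K := isKahler_chi hw hθc hR zero_le_one
  have hP1 : 0 < J (chi θ w 1) (fun _ => 1) := J_pos h1K.toIsHermitian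
  have hηc : Continuous fun y => η y := η.continuous
  have hIη : 0 < J w (fun y => η y) :=
    J_pos_of hwH hηc (fun y => (hη01 y).1) (x := x) (by rw [hηx]; exact one_pos)
  set κ0 : ℝ := δ / (J (chi θ w 1) (fun _ => 1) * (1 + C ^ 2)) with hκ0
  have hκ0p : 0 < κ0 := by positivity
  set κ1 : ℝ := 2 * Real.sqrt κ0 with hκ1
  have hκ1p : 0 < κ1 := by positivity
  set Cs : ℝ := Real.pi * (m + m0) * n * J w (fun _ => 1) with hCs
  -- the main estimate
  have claim : ∀ t : ℝ, 1 ≤ t → κ1 * J w (fun y => η y) ≤ (Cs + n) / t := by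
    intro t ht
    have ht0 : 0 < t := lt_of_lt_of_le one_pos ht
    set s : ℝ := t ^ 2 with hs
    have hs1 : 1 ≤ s := by rw [hs]; nlinarith
    have hs0 : 0 < s := lt_of_lt_of_le one_pos hs1
    obtain ⟨U, c, hU, hg, hlog⟩ := exists_yau hYau hw hθc hR hs0.le
    set g := addH (chi θ w s) U with hgdef
    have hgH := hg.toIsHermitian
    have hχ := isKahler_chi hw hθc hR hs0.le
    have hχH := hχ.toIsHermitian
    obtain ⟨S, S0, hSs, hS0s, hSn, hS0n, hSV, hB, hB0⟩ := hS g hg ⟨c, hlog⟩
    obtain ⟨hvol, hτ0, hT1, hT2⟩ := trace_bounds hw hθc hR hs0 hU hg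
    rw [← hgdef] at hvol hτ0 hT1 hT2
    set P := J (chi θ w s) (fun _ => 1) with hP
    have hPpos : 0 < P := J_pos hχH
    have hPle : P ≤ s ^ ν * J (chi θ w 1) (fun _ => 1) := vol_chi_le hw hθc hR hr hs1
    have hPe : P = Real.exp c * J w (fun _ => 1) := by
      rw [← hvol, J_scale hgH hwH hlog]
    -- the truncation level
    have hcS := sm_continuous hSs
    have hcS0 := sm_continuous hS0s
    obtain ⟨y1, hy1, hmin1⟩ := hKc.exists_isMinOn ⟨x, hxK⟩ hcS.continuousOn
    obtain ⟨y2, hy2, hmin2⟩ := hKc.exists_isMinOn ⟨x, hxK⟩ hcS0.continuousOn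
    have hp1 : 0 < S y1 := (hSV y1 (hKV y1 hy1)).1
    have hp2 : 0 < S0 y2 := (hSV y2 (hKV y2 hy2)).2.1
    set d : ℝ := min (S y1) (S0 y2) / 2 with hd
    have hdpos : 0 < d := half_pos (lt_min hp1 hp2)
    have hdS : ∀ y ∈ K, d < S y ∧ d < S0 y := by
      intro y hy
      have a1 : S y1 ≤ S y := hmin1 hy
      have a2 : S0 y2 ≤ S0 y := hmin2 hy
      have a3 : min (S y1) (S0 y2) / 2 < min (S y1) (S0 y2) := half_lt_self (lt_min hp1 hp2)
      exact ⟨a3.trans_le ((min_le_left _ _).trans a1), a3.trans_le ((min_le_right _ _).trans a2)⟩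
    set a : X → ℝ := fun y => kap d (S y) with ha
    set b : X → ℝ := fun y => kap d (S0 y) with hb
    have has : SmoothFn (n := n) a := sm_comp (φ := kap d) (fun y => (kap_contDiff hdpos).contDiffAt) hSs
    have hbs : SmoothFn (n := n) b := sm_comp (φ := kap d) (fun y => (kap_contDiff hdpos).contDiffAt) hS0s
    set τ : X → ℝ := trX g θ with hτ
    have hric : IsForm θ := hθc.form
    have cτ : Continuous τ := sm_continuous (smoothFn_trX hgH hric hθc.smooth)
    have hen := energy hg has hbs cτ hτ0 hm hm0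
      (fun y => lap_kap hg hSs hSn hτ0 hm (fun y => hB y) hdpos y)
      (fun y => lap_kap hg hS0s hS0n hτ0 hm0 (fun y => hB0 y) hdpos y)
    set A : X → ℝ := fun y => gradX g (fun x => a x - b x) (fun x => a x - b x) y /
      (1 + (a y - b y) ^ 2) with hA
    have habs : SmoothFn (n := n) (fun x => a x - b x) := sm_sub has hbs
    have cA : Continuous A := (cont_grad hgH habs habs).div
      (by have := sm_continuous habs; fun_prop) fun y => by positivity
    have hA0 : ∀ y, 0 ≤ A y := fun y =>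
      div_nonneg (gradX_self_nonneg (fun e x h => hg.posDef e x h) _ y) (by positivity)
    set B : X → ℝ := fun y => trX (chi θ w s) g y * detR (chi θ w s) w y / P with hBdef
    have ctr : Continuous (trX (chi θ w s) g) :=
      sm_continuous (smoothFn_trX hχH hgH.isForm hgH.smooth)
    have cB : Continuous B := (ctr.mul (sm_continuous (smoothFn_detR hχH hwH))).div_const P
    have htr0 : ∀ y, 0 ≤ trX (chi θ w s) g y := by
      intro y
      have hy := at_chartAt (n := n) y
      rw [trX_eq hχH hgH.isForm hy]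
      exact (Complex.le_def.1 (C2.trace_mul_nonneg (hχH.posDef _ y hy).inv.posSemidef
        (hgH.posDef _ y hy).posSemidef)).1
    have hB0' : ∀ y, 0 ≤ B y := fun y =>
      div_nonneg (mul_nonneg (htr0 y) (detR_pos hχH hwH y).le) hPpos.le
    -- pointwise lower bound on `K`
    have hpt : ∀ y ∈ K, κ0 ≤ A y * B y := by
      intro y hy
      obtain ⟨⟨hyAt, hlowy⟩, hyV⟩ := hN (hηs hy)
      have hab : (fun z => a (e.symm z) - b (e.symm z)) =ᶠ[𝓝 (e y)] fun z => u (e.symm z) := by
        have h3 : ∀ᶠ y' in 𝓝 y, d < S y' ∧ d < S0 y' ∧ y' ∈ V := by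
          filter_upwards [hcS.continuousAt.eventually (lt_mem_nhds (hdS y hy).1),
            hcS0.continuousAt.eventually (lt_mem_nhds (hdS y hy).2), hV.mem_nhds hyV] with y' b1 b2 b3
          exact ⟨b1, b2, b3⟩
        have h4 : Tendsto e.symm (𝓝 (e y)) (𝓝 y) := by
          have := e.continuousAt_symm (e.map_source hyAt.2)
          rwa [ContinuousAt, hyAt.left_inv] at this
        filter_upwards [h4.eventually h3] with z hz
        simp only [ha, hb]
        rw [kap_eq_log hdpos hz.1.le, kap_eq_log hdpos hz.2.1.le, (hSV _ hz.2.2).2.2]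
      have hval : a y - b y = u y := by
        have := hab.self_of_nhds
        simpa only [hyAt.left_inv] using this
      have hxi : xi (fun x => a x - b x) e (e y) = xi u e (e y) := xi_congr hab
      have hgrad : gradX g (fun x => a x - b x) (fun x => a x - b x) y =
          qf (g e (e y)) (xi u e (e y)) := by
        rw [gradX_eq hgH habs habs hyAt, gradE_eq_qf, hxi]
      have htr : trX (chi θ w s) g y = ((chi θ w s e (e y))⁻¹ * g e (e y)).trace.re := by
        rw [trX_eq hχH hgH.isForm hyAt]; rfl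
      have hdet := detR_eq hχH hwH hyAt
      have hdp : 0 < detR (chi θ w s) w y := detR_pos hχH hwH y
      have hQ := hlowy s hs0.le
      have hqle := qf_le (hχH.posDef e y hyAt) (hgH.posDef e y hyAt) (xi u e (e y))
      have hCy : u y ^ 2 ≤ C ^ 2 := by
        have := hC y hy
        rw [Real.norm_eq_abs] at this
        exact sq_le_sq' (by have := abs_le.1 this; linarith) (abs_le.1 this).2
      -- `A B = |ξ|²_g tr D / (P (1 + u²))`
      have e1 : A y * B y = qf (g e (e y)) (xi u e (e y)) * trX (chi θ w s) g y *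
          detR (chi θ w s) w y / (P * (1 + u y ^ 2)) := by
        simp only [hA, hBdef]
        rw [hgrad, hval]
        have : (1 + u y ^ 2) ≠ 0 := by positivity
        field_simp
      rw [e1, le_div_iff₀ (by positivity)]
      have e2 : δ * s ^ ν ≤ qf (g e (e y)) (xi u e (e y)) * trX (chi θ w s) g y *
          detR (chi θ w s) w y := by
        refine hQ.trans ?_
        unfold Qs
        rw [← hdet]
        refine mul_le_mul_of_nonneg_right ?_ hdp.le
        rw [htr, mul_comm]
        exact hqle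
      refine le_trans ?_ e2
      have e3 : κ0 * (P * (1 + u y ^ 2)) ≤
          κ0 * (s ^ ν * J (chi θ w 1) (fun _ => 1) * (1 + C ^ 2)) := by
        gcongr
      refine e3.trans (le_of_eq ?_)
      rw [hκ0]
      field_simp
    -- arithmetic-geometric mean inequality and integration
    have hηle : ∀ y, κ1 * η y ≤ t * A y + B y / t := by
      intro y
      have hη := hη01 y
      by_cases hy : y ∈ K
      · have h1 := hpt y hy
        have h2 : κ1 ≤ t * A y + B y / t := by
          have h3 : κ1 ^ 2 ≤ (t * A y + B y / t) ^ 2 := by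
            have h4 : κ1 ^ 2 = 4 * κ0 := by
              rw [hκ1, mul_pow, Real.sq_sqrt hκ0p.le]; norm_num
            have h5 : (t * A y + B y / t) ^ 2 = (t * A y - B y / t) ^ 2 + 4 * (A y * B y) := by
              field_simp
              ring
            rw [h4, h5]
            nlinarith [sq_nonneg (t * A y - B y / t)]
          exact (pow_le_pow_iff_left₀ hκ1p.le (add_nonneg (mul_nonneg ht0.le (hA0 y))
            (div_nonneg (hB0' y) ht0.le)) two_ne_zero).1 h3
        calc κ1 * η y ≤ κ1 * 1 := mul_le_mul_of_nonneg_left hη.2 hκ1p.le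
          _ ≤ _ := by rw [mul_one]; exact h2
      · rw [image_eq_zero_of_notMem_tsupport hy, mul_zero]
        exact add_nonneg (mul_nonneg ht0.le (hA0 y)) (div_nonneg (hB0' y) ht0.le)
    have cη : Continuous fun y => κ1 * η y := continuous_const.mul hηc
    have c1 : Continuous fun y => t * A y := continuous_const.mul cA
    have c2 : Continuous fun y => t⁻¹ * B y := continuous_const.mul cB
    have c3 : Continuous fun y => t * A y + t⁻¹ * B y := c1.add c2
    have hint := J_mono hwH cη c3 (fun y => by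
      have := hηle y
      rwa [div_eq_inv_mul] at this)
    rw [J_const_mul, J_add hwH c1 c2, J_const_mul, J_const_mul] at hint
    refine hint.trans ?_
    have hJA : J w A ≤ Cs / s := by
      have h1 : Real.exp c * J w A ≤ Real.pi * (m + m0) * J g τ := by
        rw [← J_scale hgH hwH hlog]; exact hen
      have h2 : s * J g τ ≤ n * P := hT1
      rw [le_div_iff₀ hs0]
      have hec := Real.exp_pos c
      have h3 : Real.exp c * (J w A * s) ≤ Real.exp c * Cs := by
        calc Real.exp c * (J w A * s) = (Real.exp c * J w A) * s := by ring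
          _ ≤ (Real.pi * (m + m0) * J g τ) * s := by gcongr
          _ = Real.pi * (m + m0) * (s * J g τ) := by ring
          _ ≤ Real.pi * (m + m0) * (n * P) := by
              have := Real.pi_pos
              gcongr
          _ = Real.exp c * Cs := by rw [hPe, hCs]; ring
      exact le_of_mul_le_mul_left h3 hec
    have hJB : J w B = n := by
      have h1 : ∀ y, B y = P⁻¹ * (trX (chi θ w s) g y * detR (chi θ w s) w y) := fun y => by
        simp only [hBdef]; rw [div_eq_inv_mul]
      rw [J_congr h1, J_const_mul, J_detR hχH hwH, hT2]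
      field_simp
    rw [hJB]
    have h5 : t * J w A ≤ Cs / t := by
      calc t * J w A ≤ t * (Cs / s) := by gcongr
        _ = Cs / t := by rw [hs]; field_simp
    rw [add_div, ← div_eq_inv_mul]
    linarith
  -- contradiction
  have hkey := claim (max 1 ((Cs + n) / (κ1 * J w (fun y => η y)) + 1)) (le_max_left _ _)
  have hpos : 0 < κ1 * J w (fun y => η y) := mul_pos hκ1p hIη
  set t := max 1 ((Cs + n) / (κ1 * J w (fun y => η y)) + 1) with ht
  have ht0 : 0 < t := lt_of_lt_of_le one_pos (le_max_left _ _)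
  rw [le_div_iff₀ ht0] at hkey
  have h6 : (Cs + n) / (κ1 * J w (fun y => η y)) + 1 ≤ t := le_max_right _ _
  have h7 : (Cs + n) / (κ1 * J w (fun y => η y)) < t := by linarith
  rw [div_lt_iff₀ hpos] at h7
  linarith

/-- the Yau metric with volume form `exp φ` -/
theorem exists_yau' [ConnectedSpace X] {χ : Chart n X → Cm n → Matrix (Fin n) (Fin n) ℂ}
    (hχ : IsKahler χ)
    {φ : Chart n X → Cm n → ℝ} (hφ : IsCanonicalMetric φ) :
    ∃ (w : Chart n X → Cm n → Matrix (Fin n) (Fin n) ℂ) (c : ℝ), IsKahler w ∧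
      ∀ e x, At e x → Real.log (w e (e x)).det.re = φ e (e x) + c := by
  obtain ⟨u, c, hu, hpos, heq⟩ := (yau (n := n) (X := X)) χ hχ _
    (smoothFn_ricPot hχ.toIsHermitian hφ)
  refine ⟨addH χ u, c, ?_, fun e x hx => ?_⟩
  · refine isKahler_of_closed' ?_ hpos
    exact (INT.IsKahler.isClosedForm hχ).add (INT.isClosedForm_cHess hu)
  · have := heq e x hx
    rw [ricPot_eq hχ.toIsHermitian hφ hx] at this
    linarith

end Vale.Agent.P281.H156.SA

namespace Vale.Agent.P281.H156.SA

open Vale.Agent.P299 Vale.Agent.P299.H882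
open Vale.Agent.P272.K Vale.Agent.P272.K.AMP Vale.Agent.P299.D
open INT (IsDensity intX IsClosedForm)

/-- **Block X2, core.** -/
theorem coreT : Vale.Agent.P281.H167.SA.CoreT := by
  intro n X _ _ _ _ _ _ χ hχ φ hφ hθ m m0 hm hm0 V hV u hS ν hν e x hx hxV hr v hv
  obtain ⟨w, c0, hw, hdet⟩ := exists_yau' hχ hφ
  have hθc : IsClosedForm (n := n) (X := X) (fun e z => cHess (φ e) z) :=
    INT.isClosedForm_canonical hφ
  have hq := flat_core (θ := fun e z => cHess (φ e) z) yau hw hθc hθ hm hm0 hV (u := u)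
    (fun g hg hc => hS g hg (by
      obtain ⟨c, hc⟩ := hc
      exact ⟨c0 + c, fun e x hx => by rw [hc e x hx, hdet e x hx]; ring⟩)) hν hx hxV
  rw [← hr] at hq
  exact kills_of_qn hw hθc hθ hx hq.le v hv

/-- **Block X.** -/
theorem xPart : Vale.Agent.P281.H713.SA.XPart := Vale.Agent.P281.H167.SA.xPart_of_core coreT

end Vale.Agent.P281.H156.SA
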